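import Vale.Agent.P179.H143.CBridge
import Vale.Agent.P179.H166.Plus

/-!
# The final form of Theorem C+
-/

namespace P179B

open Subgroup P179H524

universe u

/-- **Theorem C+.** -/
theorem theoremCplus (p : ℕ) [hp : Fact p.Prime] {k : Type u} [Field k] [IsAlgClosed k] [CharP k p]
    (red : integralClosure ℤ ℂ →+* k) {G : Type} [Group G] [Finite G]
    (B : MonoidAlgebra k G) (hB : IsBlock B) (D : Subgroup G)
    (hD : IsDefectGroup B D)
    (h : (∀ a ∈ D, ∀ b ∈ D, a * b = b * a) ∨ (p = 2 ∧ ∀ a ∈ D, a ^ 4 = 1) ∨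
      (p = 3 ∧ ∀ a ∈ D, a ^ 3 = 1)) :
    numSimpleIn B ≡ numWeightsIn p red B [MOD p] := by
  rw [numSimpleIn_eq, numWeightsIn_eq]
  exact P179C.theoremCplus p red B hB D hD h

end P179B
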